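import Vale.Agent.P324B.Time

/-! Unit jobs with precedence constraints on any fixed number of machines: polynomial time. -/

namespace Vale.Agent.Results.P324.PolyAdj

open Vale.Agent.PT Vale.Agent.P324B

theorem result (m : ℕ) :
    (∃ f : List (List ℕ) × ℕ → Bool, PolyTimeTM f ∧
      ∀ adj T, f (adj, T) = true ↔ HasSchedule m adj T) ∧
    (∃ g : List (List ℕ) → ℕ, PolyTimeTM g ∧
      ∀ adj, (∃ T, HasSchedule m adj T) → IsLeast {T | HasSchedule m adj T} (g adj)) :=
  ⟨⟨decideSch m, (ptime_decideSch m).toTM, fun _ _ => decideSch_iff⟩,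
    optimum m, (ptime_optimum m).toTM, fun _ => optimum_spec⟩

end Vale.Agent.Results.P324.PolyAdj
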