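import Vale.Agent.P324.Main

open Vale.Agent.PT Vale.Agent.P324 in
theorem Vale.Agent.Results.P324.PolyTime.result (m : ℕ) :
    (∃ f : Graph × ℕ → Bool, PolyTimeTM f ∧
      ∀ (G : Graph) (T : ℕ), f (G, T) = true ↔ ∃ τ, IsSchedule m G T τ) ∧
    ∃ g : Graph → List ℕ, PolyTimeTM g ∧
      ∀ (G : Graph) (T : ℕ), (∃ τ, IsSchedule m G T τ) →
        IsSchedule m G T fun v => (g G).getD v 0 :=
  main m
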